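import Mathlib
import Vale.Agent.P260.H493.Defs

/-!
# P260 climb: degrees, truncation and slabs
-/

namespace Vale.Agent.P260.H243

open Vale.Agent.P260.H493 MonoidAlgebra

variable {k Γ : Type} [Field k] [Group Γ] {ψ : Γ →* Multiplicative ℤ} {ι κ : Type}

theorem deg_mul (g h : Γ) : deg ψ (g * h) = deg ψ g + deg ψ h := by
  simp [deg]

theorem deg_one : deg ψ (1 : Γ) = 0 := by simp [deg]

theorem deg_inv (g : Γ) : deg ψ g⁻¹ = -deg ψ g := by simp [deg]

theorem deg_zpow (g : Γ) (n : ℤ) : deg ψ (g ^ n) = n * deg ψ g := by simp [deg]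

theorem deg_psi_inv (g : Γ) : deg ψ⁻¹ g = -deg ψ g := by simp [deg]

theorem deg_ker {g : Γ} (hg : g ∈ ψ.ker) : deg ψ g = 0 := by
  have : ψ g = 1 := hg
  simp [deg, this]

theorem mem_ker_of_deg {g : Γ} (hg : deg ψ g = 0) : g ∈ ψ.ker := by
  change ψ g = 1
  exact hg

/-! ### `Ge` and `Le` -/

theorem ge_zero (c : ℤ) : Ge ψ c (0 : ι → MonoidAlgebra k Γ) := by
  intro i g h
  simp at h

theorem ge_add {c : ℤ} {v w : ι → MonoidAlgebra k Γ} (hv : Ge ψ c v) (hw : Ge ψ c w) :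
    Ge ψ c (v + w) := by
  intro i g h
  by_cases h1 : (v i).coeff g = 0
  · by_cases h2 : (w i).coeff g = 0
    · exfalso
      apply h
      simp [h1, h2]
    · exact hw i g h2
  · exact hv i g h1

theorem ge_neg {c : ℤ} {v : ι → MonoidAlgebra k Γ} (hv : Ge ψ c v) : Ge ψ c (-v) := by
  intro i g h
  refine hv i g fun h1 => h ?_
  simp [h1]

theorem ge_sub {c : ℤ} {v w : ι → MonoidAlgebra k Γ} (hv : Ge ψ c v) (hw : Ge ψ c w) :
    Ge ψ c (v - w) := by
  rw [sub_eq_add_neg]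
  exact ge_add hv (ge_neg hw)

theorem ge_mono {c c' : ℤ} (h : c' ≤ c) {v : ι → MonoidAlgebra k Γ} (hv : Ge ψ c v) :
    Ge ψ c' v := fun i g hg => h.trans (hv i g hg)

theorem ge_inv {c : ℤ} {v : ι → MonoidAlgebra k Γ} : Ge ψ⁻¹ c v ↔ Le ψ (-c) v := by
  constructor
  · intro h i g hg
    have := h i g hg
    rw [deg_psi_inv] at this
    omega
  · intro h i g hg
    have := h i g hg
    rw [deg_psi_inv]
    omega

theorem le_inv {c : ℤ} {v : ι → MonoidAlgebra k Γ} : Le ψ⁻¹ c v ↔ Ge ψ (-c) v := by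
  constructor
  · intro h i g hg
    have := h i g hg
    rw [deg_psi_inv] at this
    omega
  · intro h i g hg
    have := h i g hg
    rw [deg_psi_inv]
    omega

theorem le_iff {c : ℤ} {v : ι → MonoidAlgebra k Γ} : Le ψ c v ↔ Ge ψ⁻¹ (-c) v := by
  rw [ge_inv, neg_neg]

theorem le_zero (c : ℤ) : Le ψ c (0 : ι → MonoidAlgebra k Γ) := le_iff.2 (ge_zero _)

theorem le_add {c : ℤ} {v w : ι → MonoidAlgebra k Γ} (hv : Le ψ c v) (hw : Le ψ c w) :
    Le ψ c (v + w) := le_iff.2 (ge_add (le_iff.1 hv) (le_iff.1 hw))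

theorem le_neg {c : ℤ} {v : ι → MonoidAlgebra k Γ} (hv : Le ψ c v) : Le ψ c (-v) :=
  le_iff.2 (ge_neg (le_iff.1 hv))

theorem le_sub {c : ℤ} {v w : ι → MonoidAlgebra k Γ} (hv : Le ψ c v) (hw : Le ψ c w) :
    Le ψ c (v - w) := le_iff.2 (ge_sub (le_iff.1 hv) (le_iff.1 hw))

theorem le_mono {c c' : ℤ} (h : c ≤ c') {v : ι → MonoidAlgebra k Γ} (hv : Le ψ c v) :
    Le ψ c' v := fun i g hg => (hv i g hg).trans h

theorem ge_sum {c : ℤ} {σ : Type*} (s : Finset σ) (f : σ → ι → MonoidAlgebra k Γ)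
    (h : ∀ x ∈ s, Ge ψ c (f x)) : Ge ψ c (∑ x ∈ s, f x) := by
  classical
  induction s using Finset.induction_on with
  | empty => simpa using ge_zero c
  | insert a s ha ih =>
    rw [Finset.sum_insert ha]
    exact ge_add (h a (Finset.mem_insert_self a s))
      (ih fun x hx => h x (Finset.mem_insert_of_mem hx))

/-- left multiplication by a group element -/
theorem coeff_single_smul (g : Γ) (r : k) (v : ι → MonoidAlgebra k Γ) (i : ι) (x : Γ) :
    (((single g r : MonoidAlgebra k Γ) • v) i).coeff x = r * (v i).coeff (g⁻¹ * x) := by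
  rw [Pi.smul_apply, smul_eq_mul]
  apply coeff_single_mul_eq_mul_coeff
  intro m _
  constructor
  · rintro rfl
    simp
  · rintro rfl
    simp

theorem ge_single_smul {c : ℤ} (g : Γ) (r : k) {v : ι → MonoidAlgebra k Γ} (hv : Ge ψ c v) :
    Ge ψ (deg ψ g + c) ((single g r : MonoidAlgebra k Γ) • v) := by
  intro i x hx
  rw [coeff_single_smul] at hx
  have := hv i (g⁻¹ * x) (right_ne_zero_of_mul hx)
  rw [deg_mul, deg_inv] at this
  omega

theorem le_single_smul {c : ℤ} (g : Γ) (r : k) {v : ι → MonoidAlgebra k Γ} (hv : Le ψ c v) :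
    Le ψ (deg ψ g + c) ((single g r : MonoidAlgebra k Γ) • v) := by
  intro i x hx
  rw [coeff_single_smul] at hx
  have := hv i (g⁻¹ * x) (right_ne_zero_of_mul hx)
  rw [deg_mul, deg_inv] at this
  omega

/-- every vector has a lower bound for its degrees -/
theorem exists_ge [Finite ι] (ψ : Γ →* Multiplicative ℤ) (v : ι → MonoidAlgebra k Γ) :
    ∃ c, Ge ψ c v := by
  classical
  have := Fintype.ofFinite ι
  have hb : BddBelow (((Finset.univ.biUnion fun i => (v i).coeff.support).image (deg ψ) :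
    Finset ℤ) : Set ℤ) := Finset.bddBelow _
  obtain ⟨c, hc⟩ := hb
  refine ⟨c, fun i g hg => hc ?_⟩
  rw [Finset.mem_coe, Finset.mem_image]
  exact ⟨g, Finset.mem_biUnion.2 ⟨i, Finset.mem_univ i, Finsupp.mem_support_iff.2 hg⟩, rfl⟩

theorem exists_le [Finite ι] (ψ : Γ →* Multiplicative ℤ) (v : ι → MonoidAlgebra k Γ) :
    ∃ c, Le ψ c v := by
  obtain ⟨c, hc⟩ := exists_ge ψ⁻¹ v
  exact ⟨-c, ge_inv.1 hc⟩

/-- a linear map that is good on the basis is a `Shift` -/
theorem shift_of_basis [Fintype ι] [DecidableEq ι] {C : ℤ}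
    {T : (ι → MonoidAlgebra k Γ) →ₗ[MonoidAlgebra k Γ] (κ → MonoidAlgebra k Γ)}
    (h : ∀ j, Ge ψ C (T (Pi.single j 1))) : Shift ψ C T := by
  intro c v hv
  have h1 : v = ∑ j, v j • (Pi.single j (1 : MonoidAlgebra k Γ) : ι → MonoidAlgebra k Γ) := by
    funext i
    rw [Finset.sum_apply]
    simp [Pi.single_apply]
  rw [h1, map_sum]
  refine ge_sum _ _ fun j _ => ?_
  rw [map_smul]
  have h2 : v j = ∑ g ∈ (v j).coeff.support, single g ((v j).coeff g) := by
    exact (sum_coeff_single (v j)).symm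
  rw [h2, Finset.sum_smul]
  refine ge_sum _ _ fun g hg => ?_
  refine ge_mono ?_ (ge_single_smul g _ (h j))
  have := hv j g (Finsupp.mem_support_iff.1 hg)
  omega

/-- every linear map is a `Shift` -/
theorem exists_shift [Finite ι] [Finite κ] (ψ : Γ →* Multiplicative ℤ)
    (T : (ι → MonoidAlgebra k Γ) →ₗ[MonoidAlgebra k Γ] (κ → MonoidAlgebra k Γ)) :
    ∃ C, Shift ψ C T := by
  classical
  have := Fintype.ofFinite ι
  choose c hc using fun j : ι => exists_ge ψ (T (Pi.single j 1))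
  obtain ⟨C, hC⟩ := Finset.bddBelow (Finset.univ.image c)
  refine ⟨C, shift_of_basis fun j => ge_mono (hC ?_) (hc j)⟩
  simp

theorem shift_mono {C C' : ℤ} (h : C' ≤ C)
    {T : (ι → MonoidAlgebra k Γ) →ₗ[MonoidAlgebra k Γ] (κ → MonoidAlgebra k Γ)}
    (hT : Shift ψ C T) : Shift ψ C' T := fun c v hv =>
  ge_mono (by omega) (hT c v hv)

/-- upper bounds from a `Shift` for the inverse character -/
theorem Shift.le {C : ℤ}
    {T : (ι → MonoidAlgebra k Γ) →ₗ[MonoidAlgebra k Γ] (κ → MonoidAlgebra k Γ)}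
    (hT : Shift ψ⁻¹ C T) {c : ℤ} {v : ι → MonoidAlgebra k Γ} (hv : Le ψ c v) :
    Le ψ (c - C) (T v) := by
  have := hT (-c) v (le_iff.1 hv)
  rw [le_iff]
  exact ge_mono (by omega) this

/-! ### truncation -/

/-- the part of `v` with degrees in `Q` -/
noncomputable def cut (ψ : Γ →* Multiplicative ℤ) (Q : ℤ → Prop) [DecidablePred Q]
    (v : ι → MonoidAlgebra k Γ) : ι → MonoidAlgebra k Γ :=
  fun i => ofCoeff ((v i).coeff.filter fun g => Q (deg ψ g))

theorem coeff_cut (Q : ℤ → Prop) [DecidablePred Q] (v : ι → MonoidAlgebra k Γ) (i : ι) (g : Γ) :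
    (cut ψ Q v i).coeff g = if Q (deg ψ g) then (v i).coeff g else 0 := by
  simp only [cut, coeff_ofCoeff]
  rw [Finsupp.filter_apply]

theorem ge_cut {c : ℤ} (Q : ℤ → Prop) [DecidablePred Q] {v : ι → MonoidAlgebra k Γ}
    (hv : Ge ψ c v) : Ge ψ c (cut ψ Q v) := by
  intro i g hg
  rw [coeff_cut] at hg
  split_ifs at hg with h
  · exact hv i g hg
  · exact absurd rfl hg

theorem le_cut {c : ℤ} (Q : ℤ → Prop) [DecidablePred Q] {v : ι → MonoidAlgebra k Γ}
    (hv : Le ψ c v) : Le ψ c (cut ψ Q v) := by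
  intro i g hg
  rw [coeff_cut] at hg
  split_ifs at hg with h
  · exact hv i g hg
  · exact absurd rfl hg

theorem cut_spec {Q : ℤ → Prop} [DecidablePred Q] {v : ι → MonoidAlgebra k Γ} {i : ι} {g : Γ}
    (hg : (cut ψ Q v i).coeff g ≠ 0) : Q (deg ψ g) := by
  rw [coeff_cut] at hg
  split_ifs at hg with h
  · exact h
  · exact absurd rfl hg

theorem sub_cut_spec {Q : ℤ → Prop} [DecidablePred Q] {v : ι → MonoidAlgebra k Γ} {i : ι} {g : Γ}
    (hg : ((v - cut ψ Q v) i).coeff g ≠ 0) : ¬ Q (deg ψ g) := by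
  intro h
  apply hg
  rw [Pi.sub_apply]
  simp [coeff_sub, coeff_cut, h]

end Vale.Agent.P260.H243
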