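import Mathlib
import Vale.Agent.P260.H493.Defs
import Vale.Agent.P260.H243.Slice

/-!
# P260 climb: slabs as modules over the group algebra of the kernel
-/

namespace Vale.Agent.P260.H243

open Vale.Agent.P260.H493 MonoidAlgebra

variable {k Γ : Type} [Field k] [Group Γ] {ψ : Γ →* Multiplicative ℤ} {ι κ : Type}

/-- the inclusion of the group algebra of a subgroup -/
noncomputable abbrev incS (k : Type) [Field k] {Γ : Type} [Group Γ] (Δ : Subgroup Γ) :
    MonoidAlgebra k Δ →+* MonoidAlgebra k Γ := MonoidAlgebra.mapDomainRingHom k Δ.subtype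

theorem incS_single (Δ : Subgroup Γ) (g : Δ) (r : k) :
    incS k Δ (single g r) = single (g : Γ) r := by
  simp [incS]

theorem smul_eq_incS (Δ : Subgroup Γ) (b : MonoidAlgebra k Δ) (a : MonoidAlgebra k Γ) :
    b • a = incS k Δ b * a := rfl

theorem smul_eq_incS' (Δ : Subgroup Γ) (b : MonoidAlgebra k Δ) (v : ι → MonoidAlgebra k Γ) :
    b • v = incS k Δ b • v := rfl

theorem eq_sum_single {M : Type} (b : MonoidAlgebra k M) :
    b = ∑ g ∈ b.coeff.support, single g (b.coeff g) := (sum_coeff_single b).symm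

theorem ge_smul {c : ℤ} (b : MonoidAlgebra k ψ.ker) {v : ι → MonoidAlgebra k Γ}
    (hv : Ge ψ c v) : Ge ψ c (b • v) := by
  rw [smul_eq_incS']
  conv => enter [3]; rw [eq_sum_single b]
  rw [map_sum, Finset.sum_smul]
  refine ge_sum _ _ fun g _ => ?_
  rw [incS_single]
  refine ge_mono ?_ (ge_single_smul _ _ hv)
  rw [deg_ker g.2, zero_add]

theorem le_smul {c : ℤ} (b : MonoidAlgebra k ψ.ker) {v : ι → MonoidAlgebra k Γ}
    (hv : Le ψ c v) : Le ψ c (b • v) := by
  rw [smul_eq_incS', le_iff]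
  conv => enter [3]; rw [eq_sum_single b]
  rw [map_sum, Finset.sum_smul]
  refine ge_sum _ _ fun g _ => ?_
  rw [incS_single, ← le_iff]
  refine le_mono ?_ (le_single_smul _ _ hv)
  rw [deg_ker g.2, zero_add]

/-- the slab of degrees in `[a, b]` -/
def slab (k : Type) [Field k] {Γ : Type} [Group Γ] (ψ : Γ →* Multiplicative ℤ) (ι : Type)
    (a b : ℤ) : Submodule (MonoidAlgebra k ψ.ker) (ι → MonoidAlgebra k Γ) where
  carrier := {v | Ge ψ a v ∧ Le ψ b v}
  add_mem' h1 h2 := ⟨ge_add h1.1 h2.1, le_add h1.2 h2.2⟩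
  zero_mem' := ⟨ge_zero a, le_zero b⟩
  smul_mem' c _ h := ⟨ge_smul c h.1, le_smul c h.2⟩

theorem mem_slab {a b : ℤ} {v : ι → MonoidAlgebra k Γ} :
    v ∈ slab k ψ ι a b ↔ Ge ψ a v ∧ Le ψ b v := Iff.rfl

theorem eq_sum_basis [Fintype ι] [DecidableEq ι] (v : ι → MonoidAlgebra k Γ) :
    v = ∑ j, v j • (Pi.single j (1 : MonoidAlgebra k Γ) : ι → MonoidAlgebra k Γ) := by
  funext i
  rw [Finset.sum_apply]
  simp [Pi.single_apply]

theorem slab_fg [Finite ι] {t : Γ} (ht : deg ψ t = 1) (a b : ℤ) : (slab k ψ ι a b).FG := by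
  classical
  have := Fintype.ofFinite ι
  let f : (ι × Finset.Icc a b) → (ι → MonoidAlgebra k Γ) := fun p =>
    (single (t ^ (p.2 : ℤ)) (1 : k) : MonoidAlgebra k Γ) •
      (Pi.single p.1 (1 : MonoidAlgebra k Γ) : ι → MonoidAlgebra k Γ)
  have hone : ∀ l : ι, Ge ψ 0 (Pi.single l (1 : MonoidAlgebra k Γ) : ι → MonoidAlgebra k Γ) ∧
      Le ψ 0 (Pi.single l (1 : MonoidAlgebra k Γ) : ι → MonoidAlgebra k Γ) := by
    intro l
    have key : ∀ i g, ((Pi.single l (1 : MonoidAlgebra k Γ) : ι → MonoidAlgebra k Γ) i).coeff g ≠ 0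
        → deg ψ g = 0 := by
      intro i g hg
      by_cases hi : i = l
      · subst hi
        rw [Pi.single_eq_same, one_def, coeff_single] at hg
        by_cases h1 : g = 1
        · rw [h1, deg_one]
        · rw [Finsupp.single_apply, if_neg (Ne.symm h1)] at hg
          exact absurd rfl hg
      · rw [Pi.single_eq_of_ne hi] at hg
        simp at hg
    exact ⟨fun i g hg => (key i g hg).ge, fun i g hg => (key i g hg).le⟩
  have hf : slab k ψ ι a b = Submodule.span (MonoidAlgebra k ψ.ker) (Set.range f) := by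
    apply le_antisymm
    · intro v hv
      rw [eq_sum_basis v]
      refine Submodule.sum_mem _ fun l _ => ?_
      rw [eq_sum_single (v l), Finset.sum_smul]
      refine Submodule.sum_mem _ fun g hg => ?_
      have hg' : (v l).coeff g ≠ 0 := Finsupp.mem_support_iff.1 hg
      have hda := hv.1 l g hg'
      have hdb := hv.2 l g hg'
      have hker : g * t ^ (-deg ψ g) ∈ ψ.ker := by
        apply mem_ker_of_deg
        rw [deg_mul, deg_zpow, ht]
        ring
      have : (single g ((v l).coeff g) : MonoidAlgebra k Γ) •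
          (Pi.single l (1 : MonoidAlgebra k Γ) : ι → MonoidAlgebra k Γ) =
          (single (⟨g * t ^ (-deg ψ g), hker⟩ : ψ.ker) ((v l).coeff g) :
            MonoidAlgebra k ψ.ker) • f (l, ⟨deg ψ g, Finset.mem_Icc.2 ⟨hda, hdb⟩⟩) := by
        rw [smul_eq_incS', incS_single]
        simp only [f]
        rw [smul_smul, single_mul_single]
        simp
      rw [this]
      exact Submodule.smul_mem _ _ (Submodule.subset_span ⟨_, rfl⟩)
    · rw [Submodule.span_le]
      rintro _ ⟨⟨l, j, hj⟩, rfl⟩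
      rw [Finset.mem_Icc] at hj
      constructor
      · refine ge_mono ?_ (ge_single_smul _ _ (hone l).1)
        rw [deg_zpow, ht]
        simp only
        omega
      · refine le_mono ?_ (le_single_smul _ _ (hone l).2)
        rw [deg_zpow, ht]
        simp only
        omega
  rw [hf]
  exact Submodule.fg_span (Set.finite_range f)

/-- a finitely generated submodule lies in a slab -/
theorem exists_slab [Finite ι] (X : Submodule (MonoidAlgebra k ψ.ker) (ι → MonoidAlgebra k Γ))
    (hX : X.FG) : ∃ a b, a ≤ b ∧ X ≤ slab k ψ ι a b := by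
  classical
  obtain ⟨s, rfl⟩ := hX
  choose a ha using fun v : ι → MonoidAlgebra k Γ => exists_ge ψ v
  choose b hb using fun v : ι → MonoidAlgebra k Γ => exists_le ψ v
  obtain ⟨a0, ha0⟩ := Finset.bddBelow (s.image a)
  obtain ⟨b0, hb0⟩ := Finset.bddAbove (s.image b)
  refine ⟨min a0 b0, max a0 b0, min_le_max, Submodule.span_le.2 fun v hv => ⟨?_, ?_⟩⟩
  · refine ge_mono ((min_le_left _ _).trans (ha0 ?_)) (ha v)
    exact Finset.mem_coe.2 (Finset.mem_image_of_mem a hv)
  · refine le_mono ((hb0 ?_).trans (le_max_right _ _)) (hb v)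
    exact Finset.mem_coe.2 (Finset.mem_image_of_mem b hv)

end Vale.Agent.P260.H243
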