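import Mathlib
import Vale.Agent.P260.H493.Spec
import Vale.Agent.P260.H243.Sub

/-!
# P260 climb, M10: the group algebra is projective over the group algebra of the kernel
-/

namespace Vale.Agent.P260.H243

open Vale.Agent.P260.H493 MonoidAlgebra

variable {k Γ : Type} [Field k] [Group Γ] {ψ : Γ →* Multiplicative ℤ}

theorem ker_part {t : Γ} (ht : deg ψ t = 1) (g : Γ) : g * t ^ (-deg ψ g) ∈ ψ.ker := by
  apply mem_ker_of_deg
  rw [deg_mul, deg_zpow, ht]
  ring

/-- the coordinates of an element of `k[Γ]` over `k[ker ψ]`, as an additive map -/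
noncomputable def coordAdd {t : Γ} (ht : deg ψ t = 1) :
    MonoidAlgebra k Γ →+ (ℤ →₀ MonoidAlgebra k ψ.ker) :=
  (Finsupp.liftAddHom fun g : Γ =>
    (Finsupp.singleAddHom (deg ψ g)).comp
      (MonoidAlgebra.singleAddHom (⟨g * t ^ (-deg ψ g), ker_part ht g⟩ : ψ.ker))).comp
    (MonoidAlgebra.coeffAddEquiv : MonoidAlgebra k Γ ≃+ (Γ →₀ k)).toAddMonoidHom

theorem coordAdd_single {t : Γ} (ht : deg ψ t = 1) (g : Γ) (r : k) :
    coordAdd ht (single g r : MonoidAlgebra k Γ) =
      Finsupp.single (deg ψ g) (single (⟨g * t ^ (-deg ψ g), ker_part ht g⟩ : ψ.ker) r) := by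
  change (Finsupp.liftAddHom _) (Finsupp.single g r) = _
  rw [Finsupp.liftAddHom_apply_single]
  rfl

theorem coordAdd_smul {t : Γ} (ht : deg ψ t = 1) (b : MonoidAlgebra k ψ.ker)
    (a : MonoidAlgebra k Γ) : coordAdd ht (b • a) = b • coordAdd ht a := by
  rw [eq_sum_single b, Finset.sum_smul, Finset.sum_smul, map_sum]
  refine Finset.sum_congr rfl fun d _ => ?_
  rw [eq_sum_single a, Finset.smul_sum, map_sum, map_sum, Finset.smul_sum]
  refine Finset.sum_congr rfl fun g _ => ?_
  rw [smul_eq_incS, incS_single, single_mul_single, coordAdd_single, coordAdd_single,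
    Finsupp.smul_single, smul_eq_mul, single_mul_single]
  have h1 : deg ψ ((d : Γ) * g) = deg ψ g := by
    rw [deg_mul, deg_ker d.2, zero_add]
  have h2 : (⟨(d : Γ) * g * t ^ (-deg ψ ((d : Γ) * g)), ker_part ht _⟩ : ψ.ker) =
      d * ⟨g * t ^ (-deg ψ g), ker_part ht g⟩ := by
    apply Subtype.ext
    simp only [Subgroup.coe_mul]
    rw [h1, mul_assoc]
  rw [h2, h1]

/-- the coordinates as a linear map -/
noncomputable def coord {t : Γ} (ht : deg ψ t = 1) :
    MonoidAlgebra k Γ →ₗ[MonoidAlgebra k ψ.ker] (ℤ →₀ MonoidAlgebra k ψ.ker) where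
  toFun := coordAdd ht
  map_add' := map_add _
  map_smul' b a := coordAdd_smul ht b a

/-- the inverse map -/
noncomputable def uncoord (k : Type) [Field k] (ψ : Γ →* Multiplicative ℤ) (t : Γ) :
    (ℤ →₀ MonoidAlgebra k ψ.ker) →ₗ[MonoidAlgebra k ψ.ker] MonoidAlgebra k Γ :=
  Finsupp.linearCombination (MonoidAlgebra k ψ.ker)
    (fun j : ℤ => (single (t ^ j) (1 : k) : MonoidAlgebra k Γ))

theorem uncoord_coord {t : Γ} (ht : deg ψ t = 1) (a : MonoidAlgebra k Γ) :
    uncoord k ψ t (coord ht a) = a := by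
  conv_rhs => rw [eq_sum_single a]
  conv_lhs => rw [eq_sum_single a]
  rw [map_sum, map_sum]
  refine Finset.sum_congr rfl fun g _ => ?_
  change uncoord k ψ t (coordAdd ht _) = _
  rw [coordAdd_single, uncoord, Finsupp.linearCombination_single, smul_eq_incS, incS_single,
    single_mul_single]
  simp

theorem projA (hψ : Function.Surjective ψ) :
    Module.Projective (MonoidAlgebra k ψ.ker) (MonoidAlgebra k Γ) := by
  obtain ⟨t, ht⟩ := hψ (Multiplicative.ofAdd 1)
  have ht' : deg ψ t = 1 := by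
    simp [deg, ht]
  exact Module.Projective.of_split (coord ht') (uncoord k ψ t)
    (LinearMap.ext fun a => uncoord_coord ht' a)

theorem stmtProj : StmtProj := by
  intro k Γ _ _ ψ n hψ
  have := projA (k := k) hψ
  classical
  exact Module.Projective.of_equiv'
    (DFinsupp.linearEquivFunOnFintype (R := MonoidAlgebra k ψ.ker)
      (M := fun _ : Fin n => MonoidAlgebra k Γ))

end Vale.Agent.P260.H243
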