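import Mathlib
import Vale.Agent.P260.H493.Spec
import Vale.Agent.P260.H243.Sub

/-!
# P260 climb, M11: Brown's property from pushing up and down
-/

namespace Vale.Agent.P260.H243

open Vale.Agent.P260.H493 MonoidAlgebra

variable {k Γ : Type} [Field k] [Group Γ] {ψ : Γ →* Multiplicative ℤ} {m : ℕ}

theorem dd (P : PDG k Γ (m + 1)) {j : ℕ} (hj : j ≤ m) (v) : P.d j (P.d (j + 1) v) = 0 :=
  (P.ex j (by omega) _).2 ⟨v, rfl⟩

/-- one step -/
theorem step (P : PDG k Γ (m + 1)) {j : ℕ} (hj : j ≤ m) {h : P.Hom1} {β : ℤ} (hβ : 0 ≤ β)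
    (h1 : Shift ψ 1 (P.defect h (j + 1))) (h2 : Shift ψ (-β) (P.d j))
    (h3 : Shift ψ (-β) (h j)) (h4 : Shift ψ⁻¹ (-β) (P.d (j + 1)))
    (h5 : Shift ψ⁻¹ (-β) (h (j + 1))) {a c : ℤ} {w : Fin (P.r (j + 1)) → MonoidAlgebra k Γ}
    (hw : Ge ψ a (P.d j w)) (hc : Ge ψ c w) :
    ∃ w', P.d j w' = P.d j w ∧ Ge ψ (min (c + 1) (a - 3 * β)) w' ∧
      ∀ b, a + β ≤ b → Le ψ b w → Le ψ b w' := by
  let u := cut ψ (fun x => x < a - β) w
  have hu1 : Ge ψ c u := ge_cut _ hc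
  have hu2 : Le ψ (a - β) u := fun i g hg => (cut_spec hg).le
  have hwu : Ge ψ (a - β) (w - u) := fun i g hg => not_lt.1 (sub_cut_spec hg)
  refine ⟨w - P.d (j + 1) (h (j + 1) u), ?_, ?_, ?_⟩
  · rw [map_sub, dd P hj, sub_zero]
  · have hr : P.defect h (j + 1) u = u - h j (P.d j u) - P.d (j + 1) (h (j + 1) u) := rfl
    have e1 : w - P.d (j + 1) (h (j + 1) u) =
        (w - u) + P.defect h (j + 1) u + h j (P.d j u) := by
      rw [hr]
      abel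
    have hdu : Ge ψ (a - 2 * β) (P.d j u) := by
      have e2 : P.d j u = P.d j w - P.d j (w - u) := by
        rw [map_sub]
        abel
      rw [e2]
      refine ge_sub (ge_mono (by omega) hw) (ge_mono ?_ (h2 _ _ hwu))
      omega
    rw [e1]
    refine ge_add (ge_add (ge_mono ?_ hwu) (ge_mono ?_ (h1 _ _ hu1))) (ge_mono ?_ (h3 _ _ hdu))
    · exact (min_le_right _ _).trans (by omega)
    · exact min_le_left _ _
    · exact (min_le_right _ _).trans (by omega)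
  · intro b hb hwb
    refine le_sub hwb ?_
    have := Shift.le h4 (Shift.le h5 hu2)
    exact le_mono (by omega) this

/-- finitely many steps -/
theorem steps (P : PDG k Γ (m + 1)) {j : ℕ} (hj : j ≤ m) {h : P.Hom1} {β : ℤ} (hβ : 0 ≤ β)
    (h1 : Shift ψ 1 (P.defect h (j + 1))) (h2 : Shift ψ (-β) (P.d j))
    (h3 : Shift ψ (-β) (h j)) (h4 : Shift ψ⁻¹ (-β) (P.d (j + 1)))
    (h5 : Shift ψ⁻¹ (-β) (h (j + 1))) {a : ℤ} (n : ℕ) :
    ∀ w : Fin (P.r (j + 1)) → MonoidAlgebra k Γ, Ge ψ a (P.d j w) →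
      Ge ψ (a - 3 * β - n) w → ∃ w', P.d j w' = P.d j w ∧ Ge ψ (a - 3 * β) w' ∧
      ∀ b, a + β ≤ b → Le ψ b w → Le ψ b w' := by
  induction n with
  | zero =>
    intro w hw hc
    exact ⟨w, rfl, ge_mono (by simp) hc, fun _ _ h => h⟩
  | succ n ih =>
    intro w hw hc
    obtain ⟨w1, e1, f1, g1⟩ := step P hj hβ h1 h2 h3 h4 h5 hw hc
    obtain ⟨w2, e2, f2, g2⟩ := ih w1 (by rw [e1]; exact hw) (ge_mono (by push_cast; omega) f1)
    exact ⟨w2, e2.trans e1, f2, fun b hb hwb => g2 b hb (g1 b hb hwb)⟩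

/-- raising the lower bound of a preimage -/
theorem raise (P : PDG k Γ (m + 1)) (hP : P.Push ψ) {j : ℕ} (hj : j ≤ m) :
    ∃ β : ℤ, 0 ≤ β ∧ ∀ (a : ℤ) (w : Fin (P.r (j + 1)) → MonoidAlgebra k Γ),
      Ge ψ a (P.d j w) → ∃ w', P.d j w' = P.d j w ∧ Ge ψ (a - 3 * β) w' ∧
      ∀ b, a + β ≤ b → Le ψ b w → Le ψ b w' := by
  obtain ⟨h, hh, -⟩ := hP 1
  obtain ⟨c1, hc1⟩ := exists_shift ψ (P.d j)
  obtain ⟨c2, hc2⟩ := exists_shift ψ (h j)
  obtain ⟨c3, hc3⟩ := exists_shift ψ⁻¹ (P.d (j + 1))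
  obtain ⟨c4, hc4⟩ := exists_shift ψ⁻¹ (h (j + 1))
  refine ⟨|c1| + |c2| + |c3| + |c4|, by positivity, fun a w hw => ?_⟩
  have k1 := neg_abs_le c1
  have k2 := neg_abs_le c2
  have k3 := neg_abs_le c3
  have k4 := neg_abs_le c4
  have l1 := abs_nonneg c1
  have l2 := abs_nonneg c2
  have l3 := abs_nonneg c3
  have l4 := abs_nonneg c4
  obtain ⟨c, hc⟩ := exists_ge ψ w
  refine steps P hj (by positivity) (hh (j + 1) (by omega)) (shift_mono (by omega) hc1)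
    (shift_mono (by omega) hc2) (shift_mono (by omega) hc3) (shift_mono (by omega) hc4)
    (a - 3 * (|c1| + |c2| + |c3| + |c4|) - c).toNat w hw (ge_mono ?_ hc)
  have := Int.self_le_toNat (a - 3 * (|c1| + |c2| + |c3| + |c4|) - c)
  omega

/-- the claim: boundaries in a slab are boundaries of vectors in a fixed larger slab -/
theorem claim (P : PDG k Γ (m + 1)) (hP : P.Push ψ) (hP' : P.Push ψ⁻¹) {j : ℕ} (hj : j ≤ m)
    (a b : ℤ) : ∃ a' b' : ℤ, ∀ w : Fin (P.r (j + 1)) → MonoidAlgebra k Γ,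
      P.d j w ∈ slab k ψ (Fin (P.r j)) a b →
      ∃ w' ∈ slab k ψ (Fin (P.r (j + 1))) a' b', P.d j w' = P.d j w := by
  obtain ⟨β, hβ, H⟩ := raise P hP hj
  obtain ⟨γ, hγ, H'⟩ := raise P hP' hj
  refine ⟨-(max (-(a - 3 * β)) (-b + γ)), b + 3 * γ, fun w hw => ?_⟩
  obtain ⟨w1, e1, f1, -⟩ := H a w hw.1
  obtain ⟨w2, e2, f2, g2⟩ := H' (-b) w1 (by rw [e1]; exact le_iff.1 hw.2)
  refine ⟨w2, ⟨?_, ?_⟩, e2.trans e1⟩
  · have := g2 (max (-(a - 3 * β)) (-b + γ)) (le_max_right _ _)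
      (le_mono (le_max_left _ _) (le_inv.2 (by rw [neg_neg]; exact f1)))
    exact le_inv.1 this
  · rw [le_iff]
    exact ge_mono (by omega) f2

theorem stmtSlab : StmtSlab := by
  intro k Γ _ _ ψ m P hψ hP hP'
  obtain ⟨t, ht⟩ := hψ (Multiplicative.ofAdd 1)
  have ht' : deg ψ t = 1 := by
    simp [deg, ht]
  have main : ∀ j, j ≤ m →
      ∀ X : Submodule (MonoidAlgebra k ψ.ker) (Fin (P.r j) → MonoidAlgebra k Γ), X.FG →
      ∃ E : Submodule (MonoidAlgebra k ψ.ker) (Fin (P.r j) → MonoidAlgebra k Γ), E.FG ∧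
        (∀ v ∈ E, ∃ w, P.d j w = v) ∧ ∀ v ∈ X, (∃ w, P.d j w = v) → v ∈ E := by
    intro j hj X hX
    obtain ⟨a, b, hab, hXs⟩ := exists_slab X hX
    obtain ⟨a', b', H⟩ := claim P hP hP' hj a b
    refine ⟨(slab k ψ (Fin (P.r (j + 1))) a' b').map (resS ψ.ker (P.d j)),
      (slab_fg ht' a' b').map _, ?_, ?_⟩
    · rintro _ ⟨w, -, rfl⟩
      exact ⟨w, rfl⟩
    · rintro v hv ⟨w, rfl⟩
      obtain ⟨w', hw', e⟩ := H w (hXs hv)
      exact ⟨w', hw', e⟩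
  constructor
  · intro X hX
    obtain ⟨E, hE, h1, h2⟩ := main 0 (Nat.zero_le m) X hX
    refine ⟨E, hE, fun v hv => ?_, fun v hv hv0 => h2 v hv ((P.ex0 v).1 hv0)⟩
    exact (P.ex0 v).2 (h1 v hv)
  · intro i hi X hX
    obtain ⟨E, hE, h1, h2⟩ := main (i + 1) hi X hX
    refine ⟨E, hE, fun v hv => ?_, fun v hv hv0 => h2 v hv ((P.ex i (by omega) v).1 hv0)⟩
    exact (P.ex i (by omega) v).2 (h1 v hv)

end Vale.Agent.P260.H243
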